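import Vale.Agent.P160.Final

open Filter

/-- The singularity probability `q n` of the symmetric random sign matrix satisfies
`q n ^ (1 / n) → 1 / 2`. -/
theorem Vale.Agent.Results.P160.A_full.result :
    Tendsto (fun n : ℕ => Vale.Agent.P160.q n ^ ((1 : ℝ) / (n : ℝ))) atTop (nhds (1 / 2)) :=
  Vale.Agent.P160.main
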