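import Vale.Agent.P160.WMain

open Matrix

/-- A lattice all of whose sublattices have covolume at least one has few short vectors. -/
theorem Vale.Agent.Results.P160.B_lattice.result (r : ℕ) (G : Matrix (Fin r) (Fin r) ℝ)
    (hG : G.PosDef)
    (hS : ∀ (j : ℕ) (Z : Matrix (Fin r) (Fin j) ℤ), (Zᵀ * Z).det ≠ 0 →
      1 ≤ ((Z.map (Int.cast : ℤ → ℝ))ᵀ * G * Z.map (Int.cast : ℤ → ℝ)).det)
    (Y : Finset (Fin r → ℤ)) (t : ℝ)
    (hY : ∀ z ∈ Y, (fun i => (z i : ℝ)) ⬝ᵥ G *ᵥ (fun i => (z i : ℝ)) ≤ t) :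
    (Y.card : ℝ) ≤ Real.exp (4 * r + Real.pi * t) := by
  have h := Vale.Agent.P160.wrm hG hS Y hY
  rwa [Fintype.card_fin] at h
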