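import Vale.Agent.P160.WB

open MeasureTheory

/-- Log-concavity of the Gaussian mass of a symmetric polyhedron under independent dilations. -/
theorem Vale.Agent.Results.P160.C_gauss.result (r m : ℕ) (a : Fin r → Fin r → ℝ) (d : Fin r → ℝ)
    (b : Fin m → Fin r → ℝ)
    (ha : ∃ c > 0, ∀ x : Fin r → ℝ, c * ∑ i, x i ^ 2 ≤ ∑ i, (a i ⬝ᵥ x) ^ 2) (g : ℝ → ℝ)
    (hg : g = fun t => ∫ x in {x : Fin r → ℝ | ∀ j, |b j ⬝ᵥ x| ≤ 1},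
      Real.exp (-Real.pi * ∑ i, (Real.exp (d i * t) * (a i ⬝ᵥ x)) ^ 2))
    (s : ℝ) (hs0 : 0 ≤ s) (hs1 : s ≤ 1) : g 0 ^ (1 - s) * g 1 ^ s ≤ g s :=
  Vale.Agent.P160.bthm a d b ha hg hs0 hs1
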